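import Vale.Agent.P183.Defs

/-!
# The projective line over the field with 64 elements, by numbers

Points are the numbers `0, ..., 63` (field elements, as polynomials over the two element field
modulo `x^6 + x + 1`, coded in binary) and `64` (the point at infinity).  The maps are
translations `tN b`, multiplications `mN k` by the `k`-th power of the generator `2`, and the
inversion `wN`.
-/

namespace Vale.Agent.P183.PG

/-- Powers of the generator, eight binary digits each, exponents `0, ..., 125`. -/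
def expT : ℕ := 355658133388066297421708910840300133599110856668288284792850813008786800914074040218855416567669452460414071200216010755761047018417302909284626010903223134949471588754914938100360563124187357946171235649624558931620234664286016214000451082898414587889066869654185976359297544341182385393818635180704257

/-- Discrete logarithms, eight binary digits each. -/
def logT : ℕ := 3049415151751417393373114404596429138578050464854402598567365066116652208744186674147758320672317311767507985266932019464494946205625893926936181915844608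

def ex (i : ℕ) : ℕ := (expT >>> (8 * i)) &&& 255

def lg (x : ℕ) : ℕ := (logT >>> (8 * x)) &&& 255

/-- The inverse of a nonzero field element. -/
def iv (x : ℕ) : ℕ := ex (63 - lg x)

def tN (b x : ℕ) : ℕ := cond (Nat.beq x 64) 64 (x ^^^ b)

def mN (k x : ℕ) : ℕ := cond (Nat.beq x 64) 64 (cond (Nat.beq x 0) 0 (ex (lg x + k)))

def wN (x : ℕ) : ℕ := cond (Nat.beq x 64) 0 (cond (Nat.beq x 0) 64 (iv x))

theorem tN_ok : ∀ b < 64, ∀ x < 65, tN b x < 65 ∧ tN b x < 65 ∧ tN b (tN b x) = x ∧
    tN b (tN b x) = x := by decide +kernel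

theorem mN_ok : ∀ k < 63, ∀ x < 65, mN k x < 65 ∧ mN ((63 - k) % 63) x < 65 ∧
    mN ((63 - k) % 63) (mN k x) = x ∧ mN k (mN ((63 - k) % 63) x) = x := by decide +kernel

theorem wN_ok : ∀ x < 65, wN x < 65 ∧ wN x < 65 ∧ wN (wN x) = x ∧ wN (wN x) = x := by
  decide +kernel

/-- The permutation of the 65 points given by a map on numbers and its inverse. -/
def mkP (f g : ℕ → ℕ)
    (h : ∀ x < 65, f x < 65 ∧ g x < 65 ∧ g (f x) = x ∧ f (g x) = x) : Equiv.Perm (Fin 65) where
  toFun x := ⟨f x.1, (h x.1 x.2).1⟩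
  invFun x := ⟨g x.1, (h x.1 x.2).2.1⟩
  left_inv x := Fin.ext (h x.1 x.2).2.2.1
  right_inv x := Fin.ext (h x.1 x.2).2.2.2

def tP (b : ℕ) : Equiv.Perm (Fin 65) :=
  mkP (tN (b % 64)) (tN (b % 64)) (tN_ok (b % 64) (Nat.mod_lt _ (by norm_num)))

def mP (k : ℕ) : Equiv.Perm (Fin 65) :=
  mkP (mN (k % 63)) (mN ((63 - k % 63) % 63)) (mN_ok (k % 63) (Nat.mod_lt _ (by norm_num)))

def wP : Equiv.Perm (Fin 65) := mkP wN wN wN_ok

def sP : Equiv.Perm (Fin 65) := tP 1

theorem tP_val (b : ℕ) (x : Fin 65) : (tP b x).val = tN (b % 64) x.val := rfl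

theorem mP_val (k : ℕ) (x : Fin 65) : (mP k x).val = mN (k % 63) x.val := rfl

theorem wP_val (x : Fin 65) : (wP x).val = wN x.val := rfl

theorem sP_val (x : Fin 65) : (sP x).val = tN 1 x.val := rfl

theorem tP_inv_val (b : ℕ) (x : Fin 65) : ((tP b)⁻¹ x).val = tN (b % 64) x.val := rfl

theorem mP_inv_val (k : ℕ) (x : Fin 65) : ((mP k)⁻¹ x).val = mN ((63 - k % 63) % 63) x.val := rfl

theorem wP_inv_val (x : Fin 65) : (wP⁻¹ x).val = wN x.val := rfl

/-- The group of all fractional linear maps. -/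
def GG : Subgroup (Equiv.Perm (Fin 65)) := Subgroup.closure {sP, wP, mP 1}

/-- The six maps that permute `0, 1, 64`. -/
def HH : Subgroup (Equiv.Perm (Fin 65)) := Subgroup.closure {sP, wP}

def pH (a c : ℕ) : ℕ := iv (a ^^^ c)

def pK (a b c : ℕ) : ℕ :=
  cond (Nat.beq c 64) (lg (a ^^^ b)) (lg (iv (a ^^^ c) ^^^ iv (b ^^^ c)))

/-- The fractional linear map with `0 ↦ a`, `1 ↦ b`, `64 ↦ c` (for `a < b < c`). -/
def gP (a b c : ℕ) : Equiv.Perm (Fin 65) :=
  if c = 64 then tP a * mP (pK a b c) else tP c * wP * tP (pH a c) * mP (pK a b c)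

/-- Sorted triples of points. -/
def Tri (a b c : ℕ) : Prop := a < b ∧ b < c ∧ c ≤ 64

/-- The subgroup generated by the six maps and `gP a b c`. -/
def Y3 (a b c : ℕ) : Subgroup (Equiv.Perm (Fin 65)) := Subgroup.closure {sP, wP, gP a b c}

def gN (fl p1 p2 p3 x : ℕ) : ℕ :=
  cond (Nat.beq fl 1) (tN p1 (mN p3 x)) (tN p1 (wN (tN p2 (mN p3 x))))

def gI (fl p1 p2 p4 x : ℕ) : ℕ :=
  cond (Nat.beq fl 1) (mN p4 (tN p1 x)) (mN p4 (tN p2 (wN (tN p1 x))))

def step (fl p1 p2 p3 p4 d x : ℕ) : ℕ :=
  cond (Nat.beq d 0) (tN 1 x) (cond (Nat.beq d 1) (wN x)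
    (cond (Nat.beq d 2) (gN fl p1 p2 p3 x) (gI fl p1 p2 p4 x)))

/-- Follow the letters of the path `p` (digits in base four below a leading one), starting from
the three points `x, y, z`, and apply the test `fin` to the result. -/
def run (fin : ℕ → ℕ → ℕ → Bool) (fl p1 p2 p3 p4 : ℕ) : ℕ → ℕ → ℕ → ℕ → ℕ → Bool
  | 0, _, x, y, z => fin x y z
  | f + 1, p, x, y, z =>
    cond (Nat.ble p 1) (fin x y z)
      (run fin fl p1 p2 p3 p4 f (p / 4) (step fl p1 p2 p3 p4 (p % 4) x)
        (step fl p1 p2 p3 p4 (p % 4) y) (step fl p1 p2 p3 p4 (p % 4) z))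

def chk (fin : ℕ → ℕ → ℕ → Bool) (a b c p : ℕ) : Bool :=
  cond (Nat.beq c 64)
    (run fin 1 a 0 (pK a b c) ((63 - pK a b c) % 63) 30 p 0 1 64)
    (run fin 0 c (pH a c) (pK a b c) ((63 - pK a b c) % 63) 30 p 0 1 64)

/-- The points `x, y, z` include `a`, `b` and `c`. -/
def same3 (a b c x y z : ℕ) : Bool :=
  (Nat.beq x a || Nat.beq y a || Nat.beq z a) && (Nat.beq x b || Nat.beq y b || Nat.beq z b) &&
    (Nat.beq x c || Nat.beq y c || Nat.beq z c)

/-- The field elements outside the subfields with 4 and 8 elements, as a set of binary digits. -/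
def goodM : ℕ := 17582052945191452668

def finHub (x y z : ℕ) : Bool :=
  (Nat.beq x 0 || Nat.beq y 0 || Nat.beq z 0) && (Nat.beq x 64 || Nat.beq y 64 || Nat.beq z 64) &&
    Nat.testBit goodM (x + y + z - 64)

end Vale.Agent.P183.PG
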